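import Vale.Agent.P181.D.Tabs
import Vale.Agent.P181.D.Cv0p0
import Vale.Agent.P181.D.Cv0p7
import Vale.Agent.P181.D.Cv0p16
import Vale.Agent.P181.D.Cv1p0
import Vale.Agent.P181.D.Cv1p8
import Vale.Agent.P181.D.Cv1p16
import Vale.Agent.P181.D.Cv2p0
import Vale.Agent.P181.D.Cv2p6
import Vale.Agent.P181.D.Cv2p13
import Vale.Agent.P181.D.Cv3p0
import Vale.Agent.P181.D.Cv3p7
import Vale.Agent.P181.D.Cv4p0
import Vale.Agent.P181.D.Cv4p6
import Vale.Agent.P181.D.Cv5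
import Vale.Agent.P181.D.Cv6
import Vale.Agent.P181.D.Cv7
import Vale.Agent.P181.D.Cv8
import Vale.Agent.P181.D.Cv9
import Vale.Agent.P181.D.Cv10
import Vale.Agent.P181.D.Cv11
import Vale.Agent.P181.D.Cv12
import Vale.Agent.P181.D.Cv13p0
import Vale.Agent.P181.D.Cv13p9
import Vale.Agent.P181.D.Cv14p0
import Vale.Agent.P181.D.Cv14p8
import Vale.Agent.P181.D.Cv15
import Vale.Agent.P181.D.Cv16
import Vale.Agent.P181.D.Cv17
import Vale.Agent.P181.D.Cv18
import Vale.Agent.P181.D.Cv19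
import Vale.Agent.P181.D.Cv20
import Vale.Agent.P181.D.Cv21
import Vale.Agent.P181.D.Cv22
import Vale.Agent.P181.D.Cv23
import Vale.Agent.P181.D.Cv24
import Vale.Agent.P181.D.Cv25
import Vale.Agent.P181.D.Cv26
import Vale.Agent.P181.D.Cv27
import Vale.Agent.P181.D.Cv28
import Vale.Agent.P181.D.Cv29
import Vale.Agent.P181.D.Cv30
import Vale.Agent.P181.D.Cv31
import Vale.Agent.P181.D.Cv32
import Vale.Agent.P181.D.Cv33
import Vale.Agent.P181.D.Cv34
import Vale.Agent.P181.D.Cv35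
import Vale.Agent.P181.D.Cv36
import Vale.Agent.P181.D.Cv37
import Vale.Agent.P181.D.Cv38
import Vale.Agent.P181.D.Cv39
import Vale.Agent.P181.D.Cv40
import Vale.Agent.P181.D.Cv41
import Vale.Agent.P181.D.Cv42
import Vale.Agent.P181.D.Cv43
import Vale.Agent.P181.D.Cv44
import Vale.Agent.P181.D.Cv45
import Vale.Agent.P181.D.Cv46
import Vale.Agent.P181.D.Cv47
import Vale.Agent.P181.D.Cv48
import Vale.Agent.P181.D.Cv49
import Vale.Agent.P181.D.Cv50
import Vale.Agent.P181.D.Cv51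
import Vale.Agent.P181.D.Cv52
import Vale.Agent.P181.D.Cv53
import Vale.Agent.P181.D.Cv54
import Vale.Agent.P181.D.Cv55
import Vale.Agent.P181.D.Cv56
import Vale.Agent.P181.D.Cv57
import Vale.Agent.P181.D.Cv58
import Vale.Agent.P181.D.Cv59
import Vale.Agent.P181.D.Cv60
import Vale.Agent.P181.D.Cv61
import Vale.Agent.P181.D.Cv62
import Vale.Agent.P181.D.Cv63
import Vale.Agent.P181.D.Cv64
import Vale.Agent.P181.D.Cv65
import Vale.Agent.P181.D.Cv66
import Vale.Agent.P181.D.Cv67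
import Vale.Agent.P181.D.Cv68
import Vale.Agent.P181.D.Cv69
import Vale.Agent.P181.D.Cv70
import Vale.Agent.P181.D.Cv71
import Vale.Agent.P181.D.Cv72
import Vale.Agent.P181.D.Cv73
import Vale.Agent.P181.D.Cv74
import Vale.Agent.P181.D.Cv75
import Vale.Agent.P181.D.Cv76
import Vale.Agent.P181.D.Cv77

set_option maxRecDepth 100000

namespace Vale.Agent.P181.S

theorem g0 : Gd 0 1 := gd_one 0 envOk pos0 (allR_join 37 (allR_join 16 (all_one cv0p0) (all_one cv0p7) rfl) (all_one cv0p16) rfl) rfl rfl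

theorem G0 : Gd 0 1 := g0

theorem g1 : Gd 1 1 := gd_one 1 envOk pos0 (allR_join 37 (allR_join 16 (all_one cv1p0) (all_one cv1p8) rfl) (all_one cv1p16) rfl) rfl rfl

theorem G1 : Gd 0 2 := gd_join 2 G0 g1 rfl

theorem g2 : Gd 2 1 := gd_one 2 envOk pos0 (allR_join 37 (allR_join 13 (all_one cv2p0) (all_one cv2p6) rfl) (all_one cv2p13) rfl) rfl rfl

theorem G2 : Gd 0 3 := gd_join 3 G1 g2 rfl

theorem g3 : Gd 3 1 := gd_one 3 envOk pos0 (allR_join 37 (all_one cv3p0) (all_one cv3p7) rfl) rfl rfl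

theorem G3 : Gd 0 4 := gd_join 4 G2 g3 rfl

theorem g4 : Gd 4 1 := gd_one 4 envOk pos0 (allR_join 37 (all_one cv4p0) (all_one cv4p6) rfl) rfl rfl

theorem G4 : Gd 0 5 := gd_join 5 G3 g4 rfl

theorem g5 : Gd 5 1 := gd_rng envOk pos0 cv5

theorem G5 : Gd 0 6 := gd_join 6 G4 g5 rfl

theorem g6 : Gd 6 1 := gd_rng envOk pos0 cv6

theorem G6 : Gd 0 7 := gd_join 7 G5 g6 rfl

theorem g7 : Gd 7 1 := gd_rng envOk pos0 cv7

theorem G7 : Gd 0 8 := gd_join 8 G6 g7 rfl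

theorem g8 : Gd 8 1 := gd_rng envOk pos0 cv8

theorem G8 : Gd 0 9 := gd_join 9 G7 g8 rfl

theorem g9 : Gd 9 2 := gd_rng envOk pos0 cv9

theorem G9 : Gd 0 11 := gd_join 11 G8 g9 rfl

theorem g10 : Gd 11 2 := gd_rng envOk pos0 cv10

theorem G10 : Gd 0 13 := gd_join 13 G9 g10 rfl

theorem g11 : Gd 13 4 := gd_rng envOk pos0 cv11

theorem G11 : Gd 0 17 := gd_join 17 G10 g11 rfl

theorem g12 : Gd 17 15 := gd_rng envOk pos0 cv12

theorem G12 : Gd 0 32 := gd_join 32 G11 g12 rfl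

theorem g13 : Gd 32 1 := gd_one 32 envOk pos0 (allR_join 37 (all_one cv13p0) (all_one cv13p9) rfl) rfl rfl

theorem G13 : Gd 0 33 := gd_join 33 G12 g13 rfl

theorem g14 : Gd 33 1 := gd_one 33 envOk pos0 (allR_join 37 (all_one cv14p0) (all_one cv14p8) rfl) rfl rfl

theorem G14 : Gd 0 34 := gd_join 34 G13 g14 rfl

theorem g15 : Gd 34 1 := gd_rng envOk pos0 cv15

theorem G15 : Gd 0 35 := gd_join 35 G14 g15 rfl

theorem g16 : Gd 35 1 := gd_rng envOk pos0 cv16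

theorem G16 : Gd 0 36 := gd_join 36 G15 g16 rfl

theorem g17 : Gd 36 1 := gd_rng envOk pos0 cv17

theorem G17 : Gd 0 37 := gd_join 37 G16 g17 rfl

theorem g18 : Gd 37 1 := gd_rng envOk pos0 cv18

theorem G18 : Gd 0 38 := gd_join 38 G17 g18 rfl

theorem g19 : Gd 38 1 := gd_rng envOk pos0 cv19

theorem G19 : Gd 0 39 := gd_join 39 G18 g19 rfl

theorem g20 : Gd 39 2 := gd_rng envOk pos0 cv20

theorem G20 : Gd 0 41 := gd_join 41 G19 g20 rfl

theorem g21 : Gd 41 2 := gd_rng envOk pos0 cv21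

theorem G21 : Gd 0 43 := gd_join 43 G20 g21 rfl

theorem g22 : Gd 43 4 := gd_rng envOk pos0 cv22

theorem G22 : Gd 0 47 := gd_join 47 G21 g22 rfl

theorem g23 : Gd 47 17 := gd_rng envOk pos0 cv23

theorem G23 : Gd 0 64 := gd_join 64 G22 g23 rfl

theorem g24 : Gd 64 1 := gd_rng envOk pos0 cv24

theorem G24 : Gd 0 65 := gd_join 65 G23 g24 rfl

theorem g25 : Gd 65 1 := gd_rng envOk pos0 cv25

theorem G25 : Gd 0 66 := gd_join 66 G24 g25 rfl

theorem g26 : Gd 66 1 := gd_rng envOk pos0 cv26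

theorem G26 : Gd 0 67 := gd_join 67 G25 g26 rfl

theorem g27 : Gd 67 1 := gd_rng envOk pos0 cv27

theorem G27 : Gd 0 68 := gd_join 68 G26 g27 rfl

theorem g28 : Gd 68 1 := gd_rng envOk pos0 cv28

theorem G28 : Gd 0 69 := gd_join 69 G27 g28 rfl

theorem g29 : Gd 69 2 := gd_rng envOk pos0 cv29

theorem G29 : Gd 0 71 := gd_join 71 G28 g29 rfl

theorem g30 : Gd 71 2 := gd_rng envOk pos0 cv30

theorem G30 : Gd 0 73 := gd_join 73 G29 g30 rfl

theorem g31 : Gd 73 3 := gd_rng envOk pos0 cv31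

theorem G31 : Gd 0 76 := gd_join 76 G30 g31 rfl

theorem g32 : Gd 76 7 := gd_rng envOk pos0 cv32

theorem G32 : Gd 0 83 := gd_join 83 G31 g32 rfl

theorem g33 : Gd 83 13 := gd_rng envOk pos0 cv33

theorem G33 : Gd 0 96 := gd_join 96 G32 g33 rfl

theorem g34 : Gd 96 1 := gd_rng envOk pos0 cv34

theorem G34 : Gd 0 97 := gd_join 97 G33 g34 rfl

theorem g35 : Gd 97 1 := gd_rng envOk pos0 cv35

theorem G35 : Gd 0 98 := gd_join 98 G34 g35 rfl

theorem g36 : Gd 98 1 := gd_rng envOk pos0 cv36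

theorem G36 : Gd 0 99 := gd_join 99 G35 g36 rfl

theorem g37 : Gd 99 1 := gd_rng envOk pos0 cv37

theorem G37 : Gd 0 100 := gd_join 100 G36 g37 rfl

theorem g38 : Gd 100 2 := gd_rng envOk pos0 cv38

theorem G38 : Gd 0 102 := gd_join 102 G37 g38 rfl

theorem g39 : Gd 102 2 := gd_rng envOk pos0 cv39

theorem G39 : Gd 0 104 := gd_join 104 G38 g39 rfl

theorem g40 : Gd 104 3 := gd_rng envOk pos0 cv40

theorem G40 : Gd 0 107 := gd_join 107 G39 g40 rfl

theorem g41 : Gd 107 8 := gd_rng envOk pos0 cv41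

theorem G41 : Gd 0 115 := gd_join 115 G40 g41 rfl

theorem g42 : Gd 115 14 := gd_rng envOk pos0 cv42

theorem G42 : Gd 0 129 := gd_join 129 G41 g42 rfl

theorem g43 : Gd 129 1 := gd_rng envOk pos0 cv43

theorem G43 : Gd 0 130 := gd_join 130 G42 g43 rfl

theorem g44 : Gd 130 1 := gd_rng envOk pos0 cv44

theorem G44 : Gd 0 131 := gd_join 131 G43 g44 rfl

theorem g45 : Gd 131 2 := gd_rng envOk pos0 cv45

theorem G45 : Gd 0 133 := gd_join 133 G44 g45 rfl

theorem g46 : Gd 133 2 := gd_rng envOk pos0 cv46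

theorem G46 : Gd 0 135 := gd_join 135 G45 g46 rfl

theorem g47 : Gd 135 4 := gd_rng envOk pos0 cv47

theorem G47 : Gd 0 139 := gd_join 139 G46 g47 rfl

theorem g48 : Gd 139 21 := gd_rng envOk pos0 cv48

theorem G48 : Gd 0 160 := gd_join 160 G47 g48 rfl

theorem g49 : Gd 160 1 := gd_rng envOk pos0 cv49

theorem G49 : Gd 0 161 := gd_join 161 G48 g49 rfl

theorem g50 : Gd 161 1 := gd_rng envOk pos0 cv50

theorem G50 : Gd 0 162 := gd_join 162 G49 g50 rfl

theorem g51 : Gd 162 2 := gd_rng envOk pos0 cv51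

theorem G51 : Gd 0 164 := gd_join 164 G50 g51 rfl

theorem g52 : Gd 164 2 := gd_rng envOk pos0 cv52

theorem G52 : Gd 0 166 := gd_join 166 G51 g52 rfl

theorem g53 : Gd 166 4 := gd_rng envOk pos0 cv53

theorem G53 : Gd 0 170 := gd_join 170 G52 g53 rfl

theorem g54 : Gd 170 22 := gd_rng envOk pos0 cv54

theorem G54 : Gd 0 192 := gd_join 192 G53 g54 rfl

theorem g55 : Gd 192 1 := gd_rng envOk pos0 cv55

theorem G55 : Gd 0 193 := gd_join 193 G54 g55 rfl

theorem g56 : Gd 193 2 := gd_rng envOk pos0 cv56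

theorem G56 : Gd 0 195 := gd_join 195 G55 g56 rfl

theorem g57 : Gd 195 2 := gd_rng envOk pos0 cv57

theorem G57 : Gd 0 197 := gd_join 197 G56 g57 rfl

theorem g58 : Gd 197 4 := gd_rng envOk pos0 cv58

theorem G58 : Gd 0 201 := gd_join 201 G57 g58 rfl

theorem g59 : Gd 201 23 := gd_rng envOk pos0 cv59

theorem G59 : Gd 0 224 := gd_join 224 G58 g59 rfl

theorem g60 : Gd 224 2 := gd_rng envOk pos0 cv60

theorem G60 : Gd 0 226 := gd_join 226 G59 g60 rfl

theorem g61 : Gd 226 3 := gd_rng envOk pos0 cv61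

theorem G61 : Gd 0 229 := gd_join 229 G60 g61 rfl

theorem g62 : Gd 229 5 := gd_rng envOk pos0 cv62

theorem G62 : Gd 0 234 := gd_join 234 G61 g62 rfl

theorem g63 : Gd 234 23 := gd_rng envOk pos0 cv63

theorem G63 : Gd 0 257 := gd_join 257 G62 g63 rfl

theorem g64 : Gd 257 3 := gd_rng envOk pos0 cv64

theorem G64 : Gd 0 260 := gd_join 260 G63 g64 rfl

theorem g65 : Gd 260 5 := gd_rng envOk pos0 cv65

theorem G65 : Gd 0 265 := gd_join 265 G64 g65 rfl

theorem g66 : Gd 265 24 := gd_rng envOk pos0 cv66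

theorem G66 : Gd 0 289 := gd_join 289 G65 g66 rfl

theorem g67 : Gd 289 4 := gd_rng envOk pos0 cv67

theorem G67 : Gd 0 293 := gd_join 293 G66 g67 rfl

theorem g68 : Gd 293 27 := gd_rng envOk pos0 cv68

theorem G68 : Gd 0 320 := gd_join 320 G67 g68 rfl

theorem g69 : Gd 320 4 := gd_rng envOk pos0 cv69

theorem G69 : Gd 0 324 := gd_join 324 G68 g69 rfl

theorem g70 : Gd 324 28 := gd_rng envOk pos0 cv70

theorem G70 : Gd 0 352 := gd_join 352 G69 g70 rfl

theorem g71 : Gd 352 5 := gd_rng envOk pos0 cv71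

theorem G71 : Gd 0 357 := gd_join 357 G70 g71 rfl

theorem g72 : Gd 357 29 := gd_rng envOk pos0 cv72

theorem G72 : Gd 0 386 := gd_join 386 G71 g72 rfl

theorem g73 : Gd 386 31 := gd_rng envOk pos0 cv73

theorem G73 : Gd 0 417 := gd_join 417 G72 g73 rfl

theorem g74 : Gd 417 32 := gd_rng envOk pos0 cv74

theorem G74 : Gd 0 449 := gd_join 449 G73 g74 rfl

theorem g75 : Gd 449 36 := gd_rng envOk pos0 cv75

theorem G75 : Gd 0 485 := gd_join 485 G74 g75 rfl

theorem g76 : Gd 485 94 := gd_rng envOk pos0 cv76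

theorem G76 : Gd 0 579 := gd_join 579 G75 g76 rfl

theorem g77 : Gd 579 221 := gd_rng envOk pos0 cv77

theorem G77 : Gd 0 800 := gd_join 800 G76 g77 rfl

theorem gdAll : Gd 0 800 := G77

end Vale.Agent.P181.S
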