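import Vale.Agent.P181.S.CSpec
import Vale.Agent.P181.D.Env

set_option maxRecDepth 100000

namespace Vale.Agent.P181.S

theorem Loz : allR (rowC (lget [] LoT 0) (chk0 44 91)) 0 512 = true := by decide +kernel

theorem Los : shp LoT 13 = true := by decide +kernel

theorem Lob : ∀ k ≤ 13, lget 0 LoB k + 2 ≤ 44 ∧ k * 2 ^ lget 0 LoB k +
    cnt 6 * ∑ k' ∈ Finset.range k, 2 ^ lget 0 LoB k' < 2 ^ 44 := by decide +kernel

theorem Hiz : allR (rowC (lget [] HiT 0) (chk0 44 157)) 0 512 = true := by decide +kernel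

theorem His : shp HiT 24 = true := by decide +kernel

theorem Hib : ∀ k ≤ 24, lget 0 HiB k + 2 ≤ 44 ∧ k * 2 ^ lget 0 HiB k +
    cnt 6 * ∑ k' ∈ Finset.range k, 2 ^ lget 0 HiB k' < 2 ^ 44 := by decide +kernel

theorem Lx7vz : allR (rowC (lget [] Lx7vT 0) (chk0 32 55)) 0 512 = true := by decide +kernel

theorem Lx7vs : shp Lx7vT 6 = true := by decide +kernel

theorem Lx7vb : ∀ k ≤ 6, lget 0 Lx7vB k + 2 ≤ 32 ∧ k * 2 ^ lget 0 Lx7vB k +
    cnt 7 * ∑ k' ∈ Finset.range k, 2 ^ lget 0 Lx7vB k' < 2 ^ 32 := by decide +kernel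

theorem Lx8vz : allR (rowC (lget [] Lx8vT 0) (chk0 32 61)) 0 512 = true := by decide +kernel

theorem Lx8vs : shp Lx8vT 6 = true := by decide +kernel

theorem Lx8vb : ∀ k ≤ 6, lget 0 Lx8vB k + 2 ≤ 32 ∧ k * 2 ^ lget 0 Lx8vB k +
    cnt 8 * ∑ k' ∈ Finset.range k, 2 ^ lget 0 Lx8vB k' < 2 ^ 32 := by decide +kernel

theorem Lx9vz : allR (rowC (lget [] Lx9vT 0) (chk0 32 67)) 0 512 = true := by decide +kernel

theorem Lx9vs : shp Lx9vT 6 = true := by decide +kernel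

theorem Lx9vb : ∀ k ≤ 6, lget 0 Lx9vB k + 2 ≤ 32 ∧ k * 2 ^ lget 0 Lx9vB k +
    cnt 9 * ∑ k' ∈ Finset.range k, 2 ^ lget 0 Lx9vB k' < 2 ^ 32 := by decide +kernel

theorem Lx10vz : allR (rowC (lget [] Lx10vT 0) (chk0 32 73)) 0 512 = true := by decide +kernel

theorem Lx10vs : shp Lx10vT 6 = true := by decide +kernel

theorem Lx10vb : ∀ k ≤ 6, lget 0 Lx10vB k + 2 ≤ 32 ∧ k * 2 ^ lget 0 Lx10vB k +
    cnt 10 * ∑ k' ∈ Finset.range k, 2 ^ lget 0 Lx10vB k' < 2 ^ 32 := by decide +kernel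

theorem Lx11vz : allR (rowC (lget [] Lx11vT 0) (chk0 32 79)) 0 512 = true := by decide +kernel

theorem Lx11vs : shp Lx11vT 6 = true := by decide +kernel

theorem Lx11vb : ∀ k ≤ 6, lget 0 Lx11vB k + 2 ≤ 32 ∧ k * 2 ^ lget 0 Lx11vB k +
    cnt 11 * ∑ k' ∈ Finset.range k, 2 ^ lget 0 Lx11vB k' < 2 ^ 32 := by decide +kernel

theorem Lx12vz : allR (rowC (lget [] Lx12vT 0) (chk0 32 85)) 0 512 = true := by decide +kernel

theorem Lx12vs : shp Lx12vT 6 = true := by decide +kernel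

theorem Lx12vb : ∀ k ≤ 6, lget 0 Lx12vB k + 2 ≤ 32 ∧ k * 2 ^ lget 0 Lx12vB k +
    cnt 12 * ∑ k' ∈ Finset.range k, 2 ^ lget 0 Lx12vB k' < 2 ^ 32 := by decide +kernel

theorem Lx13vz : allR (rowC (lget [] Lx13vT 0) (chk0 32 91)) 0 512 = true := by decide +kernel

theorem Lx13vs : shp Lx13vT 6 = true := by decide +kernel

theorem Lx13vb : ∀ k ≤ 6, lget 0 Lx13vB k + 2 ≤ 32 ∧ k * 2 ^ lget 0 Lx13vB k +
    cnt 13 * ∑ k' ∈ Finset.range k, 2 ^ lget 0 Lx13vB k' < 2 ^ 32 := by decide +kernel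

theorem Lx14vz : allR (rowC (lget [] Lx14vT 0) (chk0 32 97)) 0 512 = true := by decide +kernel

theorem Lx14vs : shp Lx14vT 6 = true := by decide +kernel

theorem Lx14vb : ∀ k ≤ 6, lget 0 Lx14vB k + 2 ≤ 32 ∧ k * 2 ^ lget 0 Lx14vB k +
    cnt 14 * ∑ k' ∈ Finset.range k, 2 ^ lget 0 Lx14vB k' < 2 ^ 32 := by decide +kernel

theorem Lx15vz : allR (rowC (lget [] Lx15vT 0) (chk0 32 103)) 0 512 = true := by decide +kernel

theorem Lx15vs : shp Lx15vT 6 = true := by decide +kernel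

theorem Lx15vb : ∀ k ≤ 6, lget 0 Lx15vB k + 2 ≤ 32 ∧ k * 2 ^ lget 0 Lx15vB k +
    cnt 15 * ∑ k' ∈ Finset.range k, 2 ^ lget 0 Lx15vB k' < 2 ^ 32 := by decide +kernel

theorem Lx16vz : allR (rowC (lget [] Lx16vT 0) (chk0 32 109)) 0 512 = true := by decide +kernel

theorem Lx16vs : shp Lx16vT 6 = true := by decide +kernel

theorem Lx16vb : ∀ k ≤ 6, lget 0 Lx16vB k + 2 ≤ 32 ∧ k * 2 ^ lget 0 Lx16vB k +
    cnt 16 * ∑ k' ∈ Finset.range k, 2 ^ lget 0 Lx16vB k' < 2 ^ 32 := by decide +kernel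

theorem Lx17vz : allR (rowC (lget [] Lx17vT 0) (chk0 32 115)) 0 512 = true := by decide +kernel

theorem Lx17vs : shp Lx17vT 6 = true := by decide +kernel

theorem Lx17vb : ∀ k ≤ 6, lget 0 Lx17vB k + 2 ≤ 32 ∧ k * 2 ^ lget 0 Lx17vB k +
    cnt 17 * ∑ k' ∈ Finset.range k, 2 ^ lget 0 Lx17vB k' < 2 ^ 32 := by decide +kernel

theorem Lx18vz : allR (rowC (lget [] Lx18vT 0) (chk0 32 121)) 0 512 = true := by decide +kernel

theorem Lx18vs : shp Lx18vT 6 = true := by decide +kernel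

theorem Lx18vb : ∀ k ≤ 6, lget 0 Lx18vB k + 2 ≤ 32 ∧ k * 2 ^ lget 0 Lx18vB k +
    cnt 18 * ∑ k' ∈ Finset.range k, 2 ^ lget 0 Lx18vB k' < 2 ^ 32 := by decide +kernel

theorem Lx19vz : allR (rowC (lget [] Lx19vT 0) (chk0 32 127)) 0 512 = true := by decide +kernel

theorem Lx19vs : shp Lx19vT 6 = true := by decide +kernel

theorem Lx19vb : ∀ k ≤ 6, lget 0 Lx19vB k + 2 ≤ 32 ∧ k * 2 ^ lget 0 Lx19vB k +
    cnt 19 * ∑ k' ∈ Finset.range k, 2 ^ lget 0 Lx19vB k' < 2 ^ 32 := by decide +kernel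

theorem Lx20vz : allR (rowC (lget [] Lx20vT 0) (chk0 32 133)) 0 512 = true := by decide +kernel

theorem Lx20vs : shp Lx20vT 6 = true := by decide +kernel

theorem Lx20vb : ∀ k ≤ 6, lget 0 Lx20vB k + 2 ≤ 32 ∧ k * 2 ^ lget 0 Lx20vB k +
    cnt 20 * ∑ k' ∈ Finset.range k, 2 ^ lget 0 Lx20vB k' < 2 ^ 32 := by decide +kernel

theorem Lx21vz : allR (rowC (lget [] Lx21vT 0) (chk0 32 139)) 0 512 = true := by decide +kernel

theorem Lx21vs : shp Lx21vT 6 = true := by decide +kernel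

theorem Lx21vb : ∀ k ≤ 6, lget 0 Lx21vB k + 2 ≤ 32 ∧ k * 2 ^ lget 0 Lx21vB k +
    cnt 21 * ∑ k' ∈ Finset.range k, 2 ^ lget 0 Lx21vB k' < 2 ^ 32 := by decide +kernel

theorem Lx22vz : allR (rowC (lget [] Lx22vT 0) (chk0 32 145)) 0 512 = true := by decide +kernel

theorem Lx22vs : shp Lx22vT 6 = true := by decide +kernel

theorem Lx22vb : ∀ k ≤ 6, lget 0 Lx22vB k + 2 ≤ 32 ∧ k * 2 ^ lget 0 Lx22vB k +
    cnt 22 * ∑ k' ∈ Finset.range k, 2 ^ lget 0 Lx22vB k' < 2 ^ 32 := by decide +kernel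

theorem Lx23vz : allR (rowC (lget [] Lx23vT 0) (chk0 32 151)) 0 512 = true := by decide +kernel

theorem Lx23vs : shp Lx23vT 6 = true := by decide +kernel

theorem Lx23vb : ∀ k ≤ 6, lget 0 Lx23vB k + 2 ≤ 32 ∧ k * 2 ^ lget 0 Lx23vB k +
    cnt 23 * ∑ k' ∈ Finset.range k, 2 ^ lget 0 Lx23vB k' < 2 ^ 32 := by decide +kernel

theorem Lx24vz : allR (rowC (lget [] Lx24vT 0) (chk0 32 157)) 0 512 = true := by decide +kernel

theorem Lx24vs : shp Lx24vT 6 = true := by decide +kernel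

theorem Lx24vb : ∀ k ≤ 6, lget 0 Lx24vB k + 2 ≤ 32 ∧ k * 2 ^ lget 0 Lx24vB k +
    cnt 24 * ∑ k' ∈ Finset.range k, 2 ^ lget 0 Lx24vB k' < 2 ^ 32 := by decide +kernel

end Vale.Agent.P181.S
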