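import Vale.Agent.P181.S.All
import Vale.Agent.P181.D.Zero
import Vale.Agent.P181.D.LoC0
import Vale.Agent.P181.D.LoC1
import Vale.Agent.P181.D.LoC2
import Vale.Agent.P181.D.LoC3
import Vale.Agent.P181.D.LoC4
import Vale.Agent.P181.D.LoC5
import Vale.Agent.P181.D.LoC6
import Vale.Agent.P181.D.LoC7
import Vale.Agent.P181.D.LoC8
import Vale.Agent.P181.D.LoC9
import Vale.Agent.P181.D.LoC10
import Vale.Agent.P181.D.LoC11
import Vale.Agent.P181.D.LoC12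
import Vale.Agent.P181.D.LoC13
import Vale.Agent.P181.D.LoC14
import Vale.Agent.P181.D.LoC15
import Vale.Agent.P181.D.LoC16
import Vale.Agent.P181.D.LoC17
import Vale.Agent.P181.D.LoC18
import Vale.Agent.P181.D.LoC19
import Vale.Agent.P181.D.LoC20
import Vale.Agent.P181.D.LoC21
import Vale.Agent.P181.D.LoC22
import Vale.Agent.P181.D.LoC23
import Vale.Agent.P181.D.LoC24
import Vale.Agent.P181.D.LoC25
import Vale.Agent.P181.D.LoC26
import Vale.Agent.P181.D.LoC27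
import Vale.Agent.P181.D.LoC28
import Vale.Agent.P181.D.LoC29
import Vale.Agent.P181.D.LoC30
import Vale.Agent.P181.D.LoC31
import Vale.Agent.P181.D.LoC32
import Vale.Agent.P181.D.LoC33
import Vale.Agent.P181.D.LoC34
import Vale.Agent.P181.D.LoC35
import Vale.Agent.P181.D.LoC36
import Vale.Agent.P181.D.LoC37
import Vale.Agent.P181.D.LoC38
import Vale.Agent.P181.D.LoC39
import Vale.Agent.P181.D.LoC40
import Vale.Agent.P181.D.LoC41
import Vale.Agent.P181.D.LoC42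
import Vale.Agent.P181.D.LoC43
import Vale.Agent.P181.D.LoC44
import Vale.Agent.P181.D.LoC45
import Vale.Agent.P181.D.LoC46
import Vale.Agent.P181.D.LoC47
import Vale.Agent.P181.D.LoC48
import Vale.Agent.P181.D.LoC49
import Vale.Agent.P181.D.LoC50
import Vale.Agent.P181.D.HiC0
import Vale.Agent.P181.D.HiC1
import Vale.Agent.P181.D.HiC2
import Vale.Agent.P181.D.HiC3
import Vale.Agent.P181.D.HiC4
import Vale.Agent.P181.D.Lx7vC0
import Vale.Agent.P181.D.Lx8vC0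
import Vale.Agent.P181.D.Lx9vC0
import Vale.Agent.P181.D.Lx10vC0
import Vale.Agent.P181.D.Lx11vC0
import Vale.Agent.P181.D.Lx12vC0
import Vale.Agent.P181.D.Lx13vC0
import Vale.Agent.P181.D.Lx14vC0
import Vale.Agent.P181.D.Lx15vC0
import Vale.Agent.P181.D.Lx16vC0
import Vale.Agent.P181.D.Lx17vC0
import Vale.Agent.P181.D.Lx18vC0
import Vale.Agent.P181.D.Lx19vC0
import Vale.Agent.P181.D.Lx20vC0
import Vale.Agent.P181.D.Lx21vC0
import Vale.Agent.P181.D.Lx22vC0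
import Vale.Agent.P181.D.Lx23vC0
import Vale.Agent.P181.D.Lx24vC0

set_option maxRecDepth 100000

namespace Vale.Agent.P181.S

theorem Lol1 : chkR LoT 44 91 6 (lget 0 LoB 1) 1 0 512 = true :=
  chk_lev (chk_one Loc1u0) (by decide +kernel)

theorem Lol2 : chkR LoT 44 91 6 (lget 0 LoB 2) 2 0 512 = true :=
  chk_lev (chk_one Loc2u0) (by decide +kernel)

theorem Lol3 : chkR LoT 44 91 6 (lget 0 LoB 3) 3 0 512 = true :=
  chk_lev (chk_join 512 (chk_one Loc3u0) Loc3u74 rfl) (by decide +kernel)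

theorem Lol4 : chkR LoT 44 91 6 (lget 0 LoB 4) 4 0 512 = true :=
  chk_lev (chk_join 512 (chk_join 134 (chk_one Loc4u0) Loc4u66 rfl) Loc4u134 rfl) (by decide +kernel)

theorem Lol5 : chkR LoT 44 91 6 (lget 0 LoB 5) 5 0 512 = true :=
  chk_lev (chk_join 512 (chk_join 166 (chk_join 101 (chk_one Loc5u0) Loc5u40 rfl) Loc5u101 rfl) Loc5u166 rfl) (by decide +kernel)

theorem Lol6 : chkR LoT 44 91 6 (lget 0 LoB 6) 6 0 512 = true :=
  chk_lev (chk_join 512 (chk_join 192 (chk_join 102 (chk_one Loc6u0) Loc6u41 rfl) Loc6u102 rfl) Loc6u192 rfl) (by decide +kernel)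

theorem Lol7 : chkR LoT 44 91 6 (lget 0 LoB 7) 7 0 512 = true :=
  chk_lev (chk_join 512 (chk_join 197 (chk_join 132 (chk_join 74 (chk_one Loc7u0) Loc7u36 rfl) Loc7u74 rfl) Loc7u132 rfl) Loc7u197 rfl) (by decide +kernel)

theorem Lol8 : chkR LoT 44 91 6 (lget 0 LoB 8) 8 0 512 = true :=
  chk_lev (chk_join 512 (chk_join 197 (chk_join 132 (chk_join 74 (chk_one Loc8u0) Loc8u36 rfl) Loc8u74 rfl) Loc8u132 rfl) Loc8u197 rfl) (by decide +kernel)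

theorem Lol9 : chkR LoT 44 91 6 (lget 0 LoB 9) 9 0 512 = true :=
  chk_lev (chk_join 512 (chk_join 197 (chk_join 132 (chk_join 74 (chk_one Loc9u0) Loc9u36 rfl) Loc9u74 rfl) Loc9u132 rfl) Loc9u197 rfl) (by decide +kernel)

theorem Lol10 : chkR LoT 44 91 6 (lget 0 LoB 10) 10 0 512 = true :=
  chk_lev (chk_join 512 (chk_join 197 (chk_join 132 (chk_join 73 (chk_one Loc10u0) Loc10u36 rfl) Loc10u73 rfl) Loc10u132 rfl) Loc10u197 rfl) (by decide +kernel)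

theorem Lol11 : chkR LoT 44 91 6 (lget 0 LoB 11) 11 0 512 = true :=
  chk_lev (chk_join 512 (chk_join 197 (chk_join 132 (chk_join 73 (chk_one Loc11u0) Loc11u36 rfl) Loc11u73 rfl) Loc11u132 rfl) Loc11u197 rfl) (by decide +kernel)

theorem Lol12 : chkR LoT 44 91 6 (lget 0 LoB 12) 12 0 512 = true :=
  chk_lev (chk_join 512 (chk_join 225 (chk_join 161 (chk_join 102 (chk_join 67 (chk_one Loc12u0) Loc12u33 rfl) Loc12u67 rfl) Loc12u102 rfl) Loc12u161 rfl) Loc12u225 rfl) (by decide +kernel)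

theorem Lol13 : chkR LoT 44 91 6 (lget 0 LoB 13) 13 0 512 = true :=
  chk_lev (chk_join 512 (chk_join 225 (chk_join 161 (chk_join 101 (chk_join 67 (chk_one Loc13u0) Loc13u33 rfl) Loc13u67 rfl) Loc13u101 rfl) Loc13u161 rfl) Loc13u225 rfl) (by decide +kernel)

theorem Low : TW 44 91 6 LoT :=
  hTab LoT 44 91 6 13 (lget 0 LoB) Los (by norm_num) Lob Loz fun k h1 h2 => by
    interval_cases k
    exacts [Lol1, Lol2, Lol3, Lol4, Lol5, Lol6, Lol7, Lol8, Lol9, Lol10, Lol11, Lol12, Lol13]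

theorem Hil1 : chkR HiT 44 157 6 (lget 0 HiB 1) 1 0 512 = true :=
  chk_lev (chk_one Hic1u0) (by decide +kernel)

theorem Hil2 : chkR HiT 44 157 6 (lget 0 HiB 2) 2 0 512 = true :=
  chk_lev (chk_one Hic2u0) (by decide +kernel)

theorem Hil3 : chkR HiT 44 157 6 (lget 0 HiB 3) 3 0 512 = true :=
  chk_lev (chk_one Hic3u0) (by decide +kernel)

theorem Hil4 : chkR HiT 44 157 6 (lget 0 HiB 4) 4 0 512 = true :=
  chk_lev (chk_one Hic4u0) (by decide +kernel)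

theorem Hil5 : chkR HiT 44 157 6 (lget 0 HiB 5) 5 0 512 = true :=
  chk_lev (chk_one Hic5u0) (by decide +kernel)

theorem Hil6 : chkR HiT 44 157 6 (lget 0 HiB 6) 6 0 512 = true :=
  chk_lev (chk_one Hic6u0) (by decide +kernel)

theorem Hil7 : chkR HiT 44 157 6 (lget 0 HiB 7) 7 0 512 = true :=
  chk_lev (chk_one Hic7u0) (by decide +kernel)

theorem Hil8 : chkR HiT 44 157 6 (lget 0 HiB 8) 8 0 512 = true :=
  chk_lev (chk_one Hic8u0) (by decide +kernel)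

theorem Hil9 : chkR HiT 44 157 6 (lget 0 HiB 9) 9 0 512 = true :=
  chk_lev (chk_one Hic9u0) (by decide +kernel)

theorem Hil10 : chkR HiT 44 157 6 (lget 0 HiB 10) 10 0 512 = true :=
  chk_lev (chk_one Hic10u0) (by decide +kernel)

theorem Hil11 : chkR HiT 44 157 6 (lget 0 HiB 11) 11 0 512 = true :=
  chk_lev (chk_one Hic11u0) (by decide +kernel)

theorem Hil12 : chkR HiT 44 157 6 (lget 0 HiB 12) 12 0 512 = true :=
  chk_lev (chk_one Hic12u0) (by decide +kernel)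

theorem Hil13 : chkR HiT 44 157 6 (lget 0 HiB 13) 13 0 512 = true :=
  chk_lev (chk_one Hic13u0) (by decide +kernel)

theorem Hil14 : chkR HiT 44 157 6 (lget 0 HiB 14) 14 0 512 = true :=
  chk_lev (chk_one Hic14u0) (by decide +kernel)

theorem Hil15 : chkR HiT 44 157 6 (lget 0 HiB 15) 15 0 512 = true :=
  chk_lev (chk_one Hic15u0) (by decide +kernel)

theorem Hil16 : chkR HiT 44 157 6 (lget 0 HiB 16) 16 0 512 = true :=
  chk_lev (chk_one Hic16u0) (by decide +kernel)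

theorem Hil17 : chkR HiT 44 157 6 (lget 0 HiB 17) 17 0 512 = true :=
  chk_lev (chk_one Hic17u0) (by decide +kernel)

theorem Hil18 : chkR HiT 44 157 6 (lget 0 HiB 18) 18 0 512 = true :=
  chk_lev (chk_one Hic18u0) (by decide +kernel)

theorem Hil19 : chkR HiT 44 157 6 (lget 0 HiB 19) 19 0 512 = true :=
  chk_lev (chk_one Hic19u0) (by decide +kernel)

theorem Hil20 : chkR HiT 44 157 6 (lget 0 HiB 20) 20 0 512 = true :=
  chk_lev (chk_one Hic20u0) (by decide +kernel)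

theorem Hil21 : chkR HiT 44 157 6 (lget 0 HiB 21) 21 0 512 = true :=
  chk_lev (chk_one Hic21u0) (by decide +kernel)

theorem Hil22 : chkR HiT 44 157 6 (lget 0 HiB 22) 22 0 512 = true :=
  chk_lev (chk_one Hic22u0) (by decide +kernel)

theorem Hil23 : chkR HiT 44 157 6 (lget 0 HiB 23) 23 0 512 = true :=
  chk_lev (chk_one Hic23u0) (by decide +kernel)

theorem Hil24 : chkR HiT 44 157 6 (lget 0 HiB 24) 24 0 512 = true :=
  chk_lev (chk_one Hic24u0) (by decide +kernel)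

theorem Hiw : TW 44 157 6 HiT :=
  hTab HiT 44 157 6 24 (lget 0 HiB) His (by norm_num) Hib Hiz fun k h1 h2 => by
    interval_cases k
    exacts [Hil1, Hil2, Hil3, Hil4, Hil5, Hil6, Hil7, Hil8, Hil9, Hil10, Hil11, Hil12, Hil13, Hil14, Hil15, Hil16, Hil17, Hil18, Hil19, Hil20, Hil21, Hil22, Hil23, Hil24]

theorem Lx7vl1 : chkR Lx7vT 32 55 7 (lget 0 Lx7vB 1) 1 0 512 = true :=
  chk_lev (chk_one Lx7vc1u0) (by decide +kernel)

theorem Lx7vl2 : chkR Lx7vT 32 55 7 (lget 0 Lx7vB 2) 2 0 512 = true :=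
  chk_lev (chk_one Lx7vc2u0) (by decide +kernel)

theorem Lx7vl3 : chkR Lx7vT 32 55 7 (lget 0 Lx7vB 3) 3 0 512 = true :=
  chk_lev (chk_one Lx7vc3u0) (by decide +kernel)

theorem Lx7vl4 : chkR Lx7vT 32 55 7 (lget 0 Lx7vB 4) 4 0 512 = true :=
  chk_lev (chk_one Lx7vc4u0) (by decide +kernel)

theorem Lx7vl5 : chkR Lx7vT 32 55 7 (lget 0 Lx7vB 5) 5 0 512 = true :=
  chk_lev (chk_one Lx7vc5u0) (by decide +kernel)

theorem Lx7vl6 : chkR Lx7vT 32 55 7 (lget 0 Lx7vB 6) 6 0 512 = true :=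
  chk_lev (chk_one Lx7vc6u0) (by decide +kernel)

theorem Lx7vw : TW 32 55 7 Lx7vT :=
  hTab Lx7vT 32 55 7 6 (lget 0 Lx7vB) Lx7vs (by norm_num) Lx7vb Lx7vz fun k h1 h2 => by
    interval_cases k
    exacts [Lx7vl1, Lx7vl2, Lx7vl3, Lx7vl4, Lx7vl5, Lx7vl6]

theorem Lx8vl1 : chkR Lx8vT 32 61 8 (lget 0 Lx8vB 1) 1 0 512 = true :=
  chk_lev (chk_one Lx8vc1u0) (by decide +kernel)

theorem Lx8vl2 : chkR Lx8vT 32 61 8 (lget 0 Lx8vB 2) 2 0 512 = true :=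
  chk_lev (chk_one Lx8vc2u0) (by decide +kernel)

theorem Lx8vl3 : chkR Lx8vT 32 61 8 (lget 0 Lx8vB 3) 3 0 512 = true :=
  chk_lev (chk_one Lx8vc3u0) (by decide +kernel)

theorem Lx8vl4 : chkR Lx8vT 32 61 8 (lget 0 Lx8vB 4) 4 0 512 = true :=
  chk_lev (chk_one Lx8vc4u0) (by decide +kernel)

theorem Lx8vl5 : chkR Lx8vT 32 61 8 (lget 0 Lx8vB 5) 5 0 512 = true :=
  chk_lev (chk_one Lx8vc5u0) (by decide +kernel)

theorem Lx8vl6 : chkR Lx8vT 32 61 8 (lget 0 Lx8vB 6) 6 0 512 = true :=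
  chk_lev (chk_one Lx8vc6u0) (by decide +kernel)

theorem Lx8vw : TW 32 61 8 Lx8vT :=
  hTab Lx8vT 32 61 8 6 (lget 0 Lx8vB) Lx8vs (by norm_num) Lx8vb Lx8vz fun k h1 h2 => by
    interval_cases k
    exacts [Lx8vl1, Lx8vl2, Lx8vl3, Lx8vl4, Lx8vl5, Lx8vl6]

theorem Lx9vl1 : chkR Lx9vT 32 67 9 (lget 0 Lx9vB 1) 1 0 512 = true :=
  chk_lev (chk_one Lx9vc1u0) (by decide +kernel)

theorem Lx9vl2 : chkR Lx9vT 32 67 9 (lget 0 Lx9vB 2) 2 0 512 = true :=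
  chk_lev (chk_one Lx9vc2u0) (by decide +kernel)

theorem Lx9vl3 : chkR Lx9vT 32 67 9 (lget 0 Lx9vB 3) 3 0 512 = true :=
  chk_lev (chk_one Lx9vc3u0) (by decide +kernel)

theorem Lx9vl4 : chkR Lx9vT 32 67 9 (lget 0 Lx9vB 4) 4 0 512 = true :=
  chk_lev (chk_one Lx9vc4u0) (by decide +kernel)

theorem Lx9vl5 : chkR Lx9vT 32 67 9 (lget 0 Lx9vB 5) 5 0 512 = true :=
  chk_lev (chk_one Lx9vc5u0) (by decide +kernel)

theorem Lx9vl6 : chkR Lx9vT 32 67 9 (lget 0 Lx9vB 6) 6 0 512 = true :=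
  chk_lev (chk_one Lx9vc6u0) (by decide +kernel)

theorem Lx9vw : TW 32 67 9 Lx9vT :=
  hTab Lx9vT 32 67 9 6 (lget 0 Lx9vB) Lx9vs (by norm_num) Lx9vb Lx9vz fun k h1 h2 => by
    interval_cases k
    exacts [Lx9vl1, Lx9vl2, Lx9vl3, Lx9vl4, Lx9vl5, Lx9vl6]

theorem Lx10vl1 : chkR Lx10vT 32 73 10 (lget 0 Lx10vB 1) 1 0 512 = true :=
  chk_lev (chk_one Lx10vc1u0) (by decide +kernel)

theorem Lx10vl2 : chkR Lx10vT 32 73 10 (lget 0 Lx10vB 2) 2 0 512 = true :=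
  chk_lev (chk_one Lx10vc2u0) (by decide +kernel)

theorem Lx10vl3 : chkR Lx10vT 32 73 10 (lget 0 Lx10vB 3) 3 0 512 = true :=
  chk_lev (chk_one Lx10vc3u0) (by decide +kernel)

theorem Lx10vl4 : chkR Lx10vT 32 73 10 (lget 0 Lx10vB 4) 4 0 512 = true :=
  chk_lev (chk_one Lx10vc4u0) (by decide +kernel)

theorem Lx10vl5 : chkR Lx10vT 32 73 10 (lget 0 Lx10vB 5) 5 0 512 = true :=
  chk_lev (chk_one Lx10vc5u0) (by decide +kernel)

theorem Lx10vl6 : chkR Lx10vT 32 73 10 (lget 0 Lx10vB 6) 6 0 512 = true :=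
  chk_lev (chk_one Lx10vc6u0) (by decide +kernel)

theorem Lx10vw : TW 32 73 10 Lx10vT :=
  hTab Lx10vT 32 73 10 6 (lget 0 Lx10vB) Lx10vs (by norm_num) Lx10vb Lx10vz fun k h1 h2 => by
    interval_cases k
    exacts [Lx10vl1, Lx10vl2, Lx10vl3, Lx10vl4, Lx10vl5, Lx10vl6]

theorem Lx11vl1 : chkR Lx11vT 32 79 11 (lget 0 Lx11vB 1) 1 0 512 = true :=
  chk_lev (chk_one Lx11vc1u0) (by decide +kernel)

theorem Lx11vl2 : chkR Lx11vT 32 79 11 (lget 0 Lx11vB 2) 2 0 512 = true :=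
  chk_lev (chk_one Lx11vc2u0) (by decide +kernel)

theorem Lx11vl3 : chkR Lx11vT 32 79 11 (lget 0 Lx11vB 3) 3 0 512 = true :=
  chk_lev (chk_one Lx11vc3u0) (by decide +kernel)

theorem Lx11vl4 : chkR Lx11vT 32 79 11 (lget 0 Lx11vB 4) 4 0 512 = true :=
  chk_lev (chk_one Lx11vc4u0) (by decide +kernel)

theorem Lx11vl5 : chkR Lx11vT 32 79 11 (lget 0 Lx11vB 5) 5 0 512 = true :=
  chk_lev (chk_one Lx11vc5u0) (by decide +kernel)

theorem Lx11vl6 : chkR Lx11vT 32 79 11 (lget 0 Lx11vB 6) 6 0 512 = true :=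
  chk_lev (chk_one Lx11vc6u0) (by decide +kernel)

theorem Lx11vw : TW 32 79 11 Lx11vT :=
  hTab Lx11vT 32 79 11 6 (lget 0 Lx11vB) Lx11vs (by norm_num) Lx11vb Lx11vz fun k h1 h2 => by
    interval_cases k
    exacts [Lx11vl1, Lx11vl2, Lx11vl3, Lx11vl4, Lx11vl5, Lx11vl6]

theorem Lx12vl1 : chkR Lx12vT 32 85 12 (lget 0 Lx12vB 1) 1 0 512 = true :=
  chk_lev (chk_one Lx12vc1u0) (by decide +kernel)

theorem Lx12vl2 : chkR Lx12vT 32 85 12 (lget 0 Lx12vB 2) 2 0 512 = true :=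
  chk_lev (chk_one Lx12vc2u0) (by decide +kernel)

theorem Lx12vl3 : chkR Lx12vT 32 85 12 (lget 0 Lx12vB 3) 3 0 512 = true :=
  chk_lev (chk_one Lx12vc3u0) (by decide +kernel)

theorem Lx12vl4 : chkR Lx12vT 32 85 12 (lget 0 Lx12vB 4) 4 0 512 = true :=
  chk_lev (chk_one Lx12vc4u0) (by decide +kernel)

theorem Lx12vl5 : chkR Lx12vT 32 85 12 (lget 0 Lx12vB 5) 5 0 512 = true :=
  chk_lev (chk_one Lx12vc5u0) (by decide +kernel)

theorem Lx12vl6 : chkR Lx12vT 32 85 12 (lget 0 Lx12vB 6) 6 0 512 = true :=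
  chk_lev (chk_one Lx12vc6u0) (by decide +kernel)

theorem Lx12vw : TW 32 85 12 Lx12vT :=
  hTab Lx12vT 32 85 12 6 (lget 0 Lx12vB) Lx12vs (by norm_num) Lx12vb Lx12vz fun k h1 h2 => by
    interval_cases k
    exacts [Lx12vl1, Lx12vl2, Lx12vl3, Lx12vl4, Lx12vl5, Lx12vl6]

theorem Lx13vl1 : chkR Lx13vT 32 91 13 (lget 0 Lx13vB 1) 1 0 512 = true :=
  chk_lev (chk_one Lx13vc1u0) (by decide +kernel)

theorem Lx13vl2 : chkR Lx13vT 32 91 13 (lget 0 Lx13vB 2) 2 0 512 = true :=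
  chk_lev (chk_one Lx13vc2u0) (by decide +kernel)

theorem Lx13vl3 : chkR Lx13vT 32 91 13 (lget 0 Lx13vB 3) 3 0 512 = true :=
  chk_lev (chk_one Lx13vc3u0) (by decide +kernel)

theorem Lx13vl4 : chkR Lx13vT 32 91 13 (lget 0 Lx13vB 4) 4 0 512 = true :=
  chk_lev (chk_one Lx13vc4u0) (by decide +kernel)

theorem Lx13vl5 : chkR Lx13vT 32 91 13 (lget 0 Lx13vB 5) 5 0 512 = true :=
  chk_lev (chk_one Lx13vc5u0) (by decide +kernel)

theorem Lx13vl6 : chkR Lx13vT 32 91 13 (lget 0 Lx13vB 6) 6 0 512 = true :=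
  chk_lev (chk_one Lx13vc6u0) (by decide +kernel)

theorem Lx13vw : TW 32 91 13 Lx13vT :=
  hTab Lx13vT 32 91 13 6 (lget 0 Lx13vB) Lx13vs (by norm_num) Lx13vb Lx13vz fun k h1 h2 => by
    interval_cases k
    exacts [Lx13vl1, Lx13vl2, Lx13vl3, Lx13vl4, Lx13vl5, Lx13vl6]

theorem Lx14vl1 : chkR Lx14vT 32 97 14 (lget 0 Lx14vB 1) 1 0 512 = true :=
  chk_lev (chk_one Lx14vc1u0) (by decide +kernel)

theorem Lx14vl2 : chkR Lx14vT 32 97 14 (lget 0 Lx14vB 2) 2 0 512 = true :=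
  chk_lev (chk_one Lx14vc2u0) (by decide +kernel)

theorem Lx14vl3 : chkR Lx14vT 32 97 14 (lget 0 Lx14vB 3) 3 0 512 = true :=
  chk_lev (chk_one Lx14vc3u0) (by decide +kernel)

theorem Lx14vl4 : chkR Lx14vT 32 97 14 (lget 0 Lx14vB 4) 4 0 512 = true :=
  chk_lev (chk_one Lx14vc4u0) (by decide +kernel)

theorem Lx14vl5 : chkR Lx14vT 32 97 14 (lget 0 Lx14vB 5) 5 0 512 = true :=
  chk_lev (chk_one Lx14vc5u0) (by decide +kernel)

theorem Lx14vl6 : chkR Lx14vT 32 97 14 (lget 0 Lx14vB 6) 6 0 512 = true :=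
  chk_lev (chk_one Lx14vc6u0) (by decide +kernel)

theorem Lx14vw : TW 32 97 14 Lx14vT :=
  hTab Lx14vT 32 97 14 6 (lget 0 Lx14vB) Lx14vs (by norm_num) Lx14vb Lx14vz fun k h1 h2 => by
    interval_cases k
    exacts [Lx14vl1, Lx14vl2, Lx14vl3, Lx14vl4, Lx14vl5, Lx14vl6]

theorem Lx15vl1 : chkR Lx15vT 32 103 15 (lget 0 Lx15vB 1) 1 0 512 = true :=
  chk_lev (chk_one Lx15vc1u0) (by decide +kernel)

theorem Lx15vl2 : chkR Lx15vT 32 103 15 (lget 0 Lx15vB 2) 2 0 512 = true :=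
  chk_lev (chk_one Lx15vc2u0) (by decide +kernel)

theorem Lx15vl3 : chkR Lx15vT 32 103 15 (lget 0 Lx15vB 3) 3 0 512 = true :=
  chk_lev (chk_one Lx15vc3u0) (by decide +kernel)

theorem Lx15vl4 : chkR Lx15vT 32 103 15 (lget 0 Lx15vB 4) 4 0 512 = true :=
  chk_lev (chk_one Lx15vc4u0) (by decide +kernel)

theorem Lx15vl5 : chkR Lx15vT 32 103 15 (lget 0 Lx15vB 5) 5 0 512 = true :=
  chk_lev (chk_one Lx15vc5u0) (by decide +kernel)

theorem Lx15vl6 : chkR Lx15vT 32 103 15 (lget 0 Lx15vB 6) 6 0 512 = true :=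
  chk_lev (chk_one Lx15vc6u0) (by decide +kernel)

theorem Lx15vw : TW 32 103 15 Lx15vT :=
  hTab Lx15vT 32 103 15 6 (lget 0 Lx15vB) Lx15vs (by norm_num) Lx15vb Lx15vz fun k h1 h2 => by
    interval_cases k
    exacts [Lx15vl1, Lx15vl2, Lx15vl3, Lx15vl4, Lx15vl5, Lx15vl6]

theorem Lx16vl1 : chkR Lx16vT 32 109 16 (lget 0 Lx16vB 1) 1 0 512 = true :=
  chk_lev (chk_one Lx16vc1u0) (by decide +kernel)

theorem Lx16vl2 : chkR Lx16vT 32 109 16 (lget 0 Lx16vB 2) 2 0 512 = true :=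
  chk_lev (chk_one Lx16vc2u0) (by decide +kernel)

theorem Lx16vl3 : chkR Lx16vT 32 109 16 (lget 0 Lx16vB 3) 3 0 512 = true :=
  chk_lev (chk_one Lx16vc3u0) (by decide +kernel)

theorem Lx16vl4 : chkR Lx16vT 32 109 16 (lget 0 Lx16vB 4) 4 0 512 = true :=
  chk_lev (chk_one Lx16vc4u0) (by decide +kernel)

theorem Lx16vl5 : chkR Lx16vT 32 109 16 (lget 0 Lx16vB 5) 5 0 512 = true :=
  chk_lev (chk_one Lx16vc5u0) (by decide +kernel)

theorem Lx16vl6 : chkR Lx16vT 32 109 16 (lget 0 Lx16vB 6) 6 0 512 = true :=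
  chk_lev (chk_one Lx16vc6u0) (by decide +kernel)

theorem Lx16vw : TW 32 109 16 Lx16vT :=
  hTab Lx16vT 32 109 16 6 (lget 0 Lx16vB) Lx16vs (by norm_num) Lx16vb Lx16vz fun k h1 h2 => by
    interval_cases k
    exacts [Lx16vl1, Lx16vl2, Lx16vl3, Lx16vl4, Lx16vl5, Lx16vl6]

theorem Lx17vl1 : chkR Lx17vT 32 115 17 (lget 0 Lx17vB 1) 1 0 512 = true :=
  chk_lev (chk_one Lx17vc1u0) (by decide +kernel)

theorem Lx17vl2 : chkR Lx17vT 32 115 17 (lget 0 Lx17vB 2) 2 0 512 = true :=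
  chk_lev (chk_one Lx17vc2u0) (by decide +kernel)

theorem Lx17vl3 : chkR Lx17vT 32 115 17 (lget 0 Lx17vB 3) 3 0 512 = true :=
  chk_lev (chk_one Lx17vc3u0) (by decide +kernel)

theorem Lx17vl4 : chkR Lx17vT 32 115 17 (lget 0 Lx17vB 4) 4 0 512 = true :=
  chk_lev (chk_one Lx17vc4u0) (by decide +kernel)

theorem Lx17vl5 : chkR Lx17vT 32 115 17 (lget 0 Lx17vB 5) 5 0 512 = true :=
  chk_lev (chk_one Lx17vc5u0) (by decide +kernel)

theorem Lx17vl6 : chkR Lx17vT 32 115 17 (lget 0 Lx17vB 6) 6 0 512 = true :=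
  chk_lev (chk_one Lx17vc6u0) (by decide +kernel)

theorem Lx17vw : TW 32 115 17 Lx17vT :=
  hTab Lx17vT 32 115 17 6 (lget 0 Lx17vB) Lx17vs (by norm_num) Lx17vb Lx17vz fun k h1 h2 => by
    interval_cases k
    exacts [Lx17vl1, Lx17vl2, Lx17vl3, Lx17vl4, Lx17vl5, Lx17vl6]

theorem Lx18vl1 : chkR Lx18vT 32 121 18 (lget 0 Lx18vB 1) 1 0 512 = true :=
  chk_lev (chk_one Lx18vc1u0) (by decide +kernel)

theorem Lx18vl2 : chkR Lx18vT 32 121 18 (lget 0 Lx18vB 2) 2 0 512 = true :=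
  chk_lev (chk_one Lx18vc2u0) (by decide +kernel)

theorem Lx18vl3 : chkR Lx18vT 32 121 18 (lget 0 Lx18vB 3) 3 0 512 = true :=
  chk_lev (chk_one Lx18vc3u0) (by decide +kernel)

theorem Lx18vl4 : chkR Lx18vT 32 121 18 (lget 0 Lx18vB 4) 4 0 512 = true :=
  chk_lev (chk_one Lx18vc4u0) (by decide +kernel)

theorem Lx18vl5 : chkR Lx18vT 32 121 18 (lget 0 Lx18vB 5) 5 0 512 = true :=
  chk_lev (chk_one Lx18vc5u0) (by decide +kernel)

theorem Lx18vl6 : chkR Lx18vT 32 121 18 (lget 0 Lx18vB 6) 6 0 512 = true :=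
  chk_lev (chk_one Lx18vc6u0) (by decide +kernel)

theorem Lx18vw : TW 32 121 18 Lx18vT :=
  hTab Lx18vT 32 121 18 6 (lget 0 Lx18vB) Lx18vs (by norm_num) Lx18vb Lx18vz fun k h1 h2 => by
    interval_cases k
    exacts [Lx18vl1, Lx18vl2, Lx18vl3, Lx18vl4, Lx18vl5, Lx18vl6]

theorem Lx19vl1 : chkR Lx19vT 32 127 19 (lget 0 Lx19vB 1) 1 0 512 = true :=
  chk_lev (chk_one Lx19vc1u0) (by decide +kernel)

theorem Lx19vl2 : chkR Lx19vT 32 127 19 (lget 0 Lx19vB 2) 2 0 512 = true :=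
  chk_lev (chk_one Lx19vc2u0) (by decide +kernel)

theorem Lx19vl3 : chkR Lx19vT 32 127 19 (lget 0 Lx19vB 3) 3 0 512 = true :=
  chk_lev (chk_one Lx19vc3u0) (by decide +kernel)

theorem Lx19vl4 : chkR Lx19vT 32 127 19 (lget 0 Lx19vB 4) 4 0 512 = true :=
  chk_lev (chk_one Lx19vc4u0) (by decide +kernel)

theorem Lx19vl5 : chkR Lx19vT 32 127 19 (lget 0 Lx19vB 5) 5 0 512 = true :=
  chk_lev (chk_one Lx19vc5u0) (by decide +kernel)

theorem Lx19vl6 : chkR Lx19vT 32 127 19 (lget 0 Lx19vB 6) 6 0 512 = true :=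
  chk_lev (chk_one Lx19vc6u0) (by decide +kernel)

theorem Lx19vw : TW 32 127 19 Lx19vT :=
  hTab Lx19vT 32 127 19 6 (lget 0 Lx19vB) Lx19vs (by norm_num) Lx19vb Lx19vz fun k h1 h2 => by
    interval_cases k
    exacts [Lx19vl1, Lx19vl2, Lx19vl3, Lx19vl4, Lx19vl5, Lx19vl6]

theorem Lx20vl1 : chkR Lx20vT 32 133 20 (lget 0 Lx20vB 1) 1 0 512 = true :=
  chk_lev (chk_one Lx20vc1u0) (by decide +kernel)

theorem Lx20vl2 : chkR Lx20vT 32 133 20 (lget 0 Lx20vB 2) 2 0 512 = true :=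
  chk_lev (chk_one Lx20vc2u0) (by decide +kernel)

theorem Lx20vl3 : chkR Lx20vT 32 133 20 (lget 0 Lx20vB 3) 3 0 512 = true :=
  chk_lev (chk_one Lx20vc3u0) (by decide +kernel)

theorem Lx20vl4 : chkR Lx20vT 32 133 20 (lget 0 Lx20vB 4) 4 0 512 = true :=
  chk_lev (chk_one Lx20vc4u0) (by decide +kernel)

theorem Lx20vl5 : chkR Lx20vT 32 133 20 (lget 0 Lx20vB 5) 5 0 512 = true :=
  chk_lev (chk_one Lx20vc5u0) (by decide +kernel)

theorem Lx20vl6 : chkR Lx20vT 32 133 20 (lget 0 Lx20vB 6) 6 0 512 = true :=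
  chk_lev (chk_one Lx20vc6u0) (by decide +kernel)

theorem Lx20vw : TW 32 133 20 Lx20vT :=
  hTab Lx20vT 32 133 20 6 (lget 0 Lx20vB) Lx20vs (by norm_num) Lx20vb Lx20vz fun k h1 h2 => by
    interval_cases k
    exacts [Lx20vl1, Lx20vl2, Lx20vl3, Lx20vl4, Lx20vl5, Lx20vl6]

theorem Lx21vl1 : chkR Lx21vT 32 139 21 (lget 0 Lx21vB 1) 1 0 512 = true :=
  chk_lev (chk_one Lx21vc1u0) (by decide +kernel)

theorem Lx21vl2 : chkR Lx21vT 32 139 21 (lget 0 Lx21vB 2) 2 0 512 = true :=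
  chk_lev (chk_one Lx21vc2u0) (by decide +kernel)

theorem Lx21vl3 : chkR Lx21vT 32 139 21 (lget 0 Lx21vB 3) 3 0 512 = true :=
  chk_lev (chk_one Lx21vc3u0) (by decide +kernel)

theorem Lx21vl4 : chkR Lx21vT 32 139 21 (lget 0 Lx21vB 4) 4 0 512 = true :=
  chk_lev (chk_one Lx21vc4u0) (by decide +kernel)

theorem Lx21vl5 : chkR Lx21vT 32 139 21 (lget 0 Lx21vB 5) 5 0 512 = true :=
  chk_lev (chk_one Lx21vc5u0) (by decide +kernel)

theorem Lx21vl6 : chkR Lx21vT 32 139 21 (lget 0 Lx21vB 6) 6 0 512 = true :=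
  chk_lev (chk_one Lx21vc6u0) (by decide +kernel)

theorem Lx21vw : TW 32 139 21 Lx21vT :=
  hTab Lx21vT 32 139 21 6 (lget 0 Lx21vB) Lx21vs (by norm_num) Lx21vb Lx21vz fun k h1 h2 => by
    interval_cases k
    exacts [Lx21vl1, Lx21vl2, Lx21vl3, Lx21vl4, Lx21vl5, Lx21vl6]

theorem Lx22vl1 : chkR Lx22vT 32 145 22 (lget 0 Lx22vB 1) 1 0 512 = true :=
  chk_lev (chk_one Lx22vc1u0) (by decide +kernel)

theorem Lx22vl2 : chkR Lx22vT 32 145 22 (lget 0 Lx22vB 2) 2 0 512 = true :=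
  chk_lev (chk_one Lx22vc2u0) (by decide +kernel)

theorem Lx22vl3 : chkR Lx22vT 32 145 22 (lget 0 Lx22vB 3) 3 0 512 = true :=
  chk_lev (chk_one Lx22vc3u0) (by decide +kernel)

theorem Lx22vl4 : chkR Lx22vT 32 145 22 (lget 0 Lx22vB 4) 4 0 512 = true :=
  chk_lev (chk_one Lx22vc4u0) (by decide +kernel)

theorem Lx22vl5 : chkR Lx22vT 32 145 22 (lget 0 Lx22vB 5) 5 0 512 = true :=
  chk_lev (chk_one Lx22vc5u0) (by decide +kernel)

theorem Lx22vl6 : chkR Lx22vT 32 145 22 (lget 0 Lx22vB 6) 6 0 512 = true :=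
  chk_lev (chk_one Lx22vc6u0) (by decide +kernel)

theorem Lx22vw : TW 32 145 22 Lx22vT :=
  hTab Lx22vT 32 145 22 6 (lget 0 Lx22vB) Lx22vs (by norm_num) Lx22vb Lx22vz fun k h1 h2 => by
    interval_cases k
    exacts [Lx22vl1, Lx22vl2, Lx22vl3, Lx22vl4, Lx22vl5, Lx22vl6]

theorem Lx23vl1 : chkR Lx23vT 32 151 23 (lget 0 Lx23vB 1) 1 0 512 = true :=
  chk_lev (chk_one Lx23vc1u0) (by decide +kernel)

theorem Lx23vl2 : chkR Lx23vT 32 151 23 (lget 0 Lx23vB 2) 2 0 512 = true :=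
  chk_lev (chk_one Lx23vc2u0) (by decide +kernel)

theorem Lx23vl3 : chkR Lx23vT 32 151 23 (lget 0 Lx23vB 3) 3 0 512 = true :=
  chk_lev (chk_one Lx23vc3u0) (by decide +kernel)

theorem Lx23vl4 : chkR Lx23vT 32 151 23 (lget 0 Lx23vB 4) 4 0 512 = true :=
  chk_lev (chk_one Lx23vc4u0) (by decide +kernel)

theorem Lx23vl5 : chkR Lx23vT 32 151 23 (lget 0 Lx23vB 5) 5 0 512 = true :=
  chk_lev (chk_one Lx23vc5u0) (by decide +kernel)

theorem Lx23vl6 : chkR Lx23vT 32 151 23 (lget 0 Lx23vB 6) 6 0 512 = true :=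
  chk_lev (chk_one Lx23vc6u0) (by decide +kernel)

theorem Lx23vw : TW 32 151 23 Lx23vT :=
  hTab Lx23vT 32 151 23 6 (lget 0 Lx23vB) Lx23vs (by norm_num) Lx23vb Lx23vz fun k h1 h2 => by
    interval_cases k
    exacts [Lx23vl1, Lx23vl2, Lx23vl3, Lx23vl4, Lx23vl5, Lx23vl6]

theorem Lx24vl1 : chkR Lx24vT 32 157 24 (lget 0 Lx24vB 1) 1 0 512 = true :=
  chk_lev (chk_one Lx24vc1u0) (by decide +kernel)

theorem Lx24vl2 : chkR Lx24vT 32 157 24 (lget 0 Lx24vB 2) 2 0 512 = true :=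
  chk_lev (chk_one Lx24vc2u0) (by decide +kernel)

theorem Lx24vl3 : chkR Lx24vT 32 157 24 (lget 0 Lx24vB 3) 3 0 512 = true :=
  chk_lev (chk_one Lx24vc3u0) (by decide +kernel)

theorem Lx24vl4 : chkR Lx24vT 32 157 24 (lget 0 Lx24vB 4) 4 0 512 = true :=
  chk_lev (chk_one Lx24vc4u0) (by decide +kernel)

theorem Lx24vl5 : chkR Lx24vT 32 157 24 (lget 0 Lx24vB 5) 5 0 512 = true :=
  chk_lev (chk_one Lx24vc5u0) (by decide +kernel)

theorem Lx24vl6 : chkR Lx24vT 32 157 24 (lget 0 Lx24vB 6) 6 0 512 = true :=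
  chk_lev (chk_one Lx24vc6u0) (by decide +kernel)

theorem Lx24vw : TW 32 157 24 Lx24vT :=
  hTab Lx24vT 32 157 24 6 (lget 0 Lx24vB) Lx24vs (by norm_num) Lx24vb Lx24vz fun k h1 h2 => by
    interval_cases k
    exacts [Lx24vl1, Lx24vl2, Lx24vl3, Lx24vl4, Lx24vl5, Lx24vl6]

theorem Lx7e : TW 32 (6 * 7 + 13) 7 (lget [] LxT (7 - 7)) := Lx7vw

theorem Lx8e : TW 32 (6 * 8 + 13) 8 (lget [] LxT (8 - 7)) := Lx8vw

theorem Lx9e : TW 32 (6 * 9 + 13) 9 (lget [] LxT (9 - 7)) := Lx9vw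

theorem Lx10e : TW 32 (6 * 10 + 13) 10 (lget [] LxT (10 - 7)) := Lx10vw

theorem Lx11e : TW 32 (6 * 11 + 13) 11 (lget [] LxT (11 - 7)) := Lx11vw

theorem Lx12e : TW 32 (6 * 12 + 13) 12 (lget [] LxT (12 - 7)) := Lx12vw

theorem Lx13e : TW 32 (6 * 13 + 13) 13 (lget [] LxT (13 - 7)) := Lx13vw

theorem Lx14e : TW 32 (6 * 14 + 13) 14 (lget [] LxT (14 - 7)) := Lx14vw

theorem Lx15e : TW 32 (6 * 15 + 13) 15 (lget [] LxT (15 - 7)) := Lx15vw

theorem Lx16e : TW 32 (6 * 16 + 13) 16 (lget [] LxT (16 - 7)) := Lx16vw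

theorem Lx17e : TW 32 (6 * 17 + 13) 17 (lget [] LxT (17 - 7)) := Lx17vw

theorem Lx18e : TW 32 (6 * 18 + 13) 18 (lget [] LxT (18 - 7)) := Lx18vw

theorem Lx19e : TW 32 (6 * 19 + 13) 19 (lget [] LxT (19 - 7)) := Lx19vw

theorem Lx20e : TW 32 (6 * 20 + 13) 20 (lget [] LxT (20 - 7)) := Lx20vw

theorem Lx21e : TW 32 (6 * 21 + 13) 21 (lget [] LxT (21 - 7)) := Lx21vw

theorem Lx22e : TW 32 (6 * 22 + 13) 22 (lget [] LxT (22 - 7)) := Lx22vw

theorem Lx23e : TW 32 (6 * 23 + 13) 23 (lget [] LxT (23 - 7)) := Lx23vw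

theorem Lx24e : TW 32 (6 * 24 + 13) 24 (lget [] LxT (24 - 7)) := Lx24vw

theorem envOk : EnvOk E0 :=
  ⟨Low, Hiw, fun b h1 h2 => by
    change TW 32 (6 * b + 13) b (lget [] LxT (b - 7))
    interval_cases b
    exacts [Lx7e, Lx8e, Lx9e, Lx10e, Lx11e, Lx12e, Lx13e, Lx14e, Lx15e, Lx16e, Lx17e, Lx18e, Lx19e, Lx20e, Lx21e, Lx22e, Lx23e, Lx24e], phiS⟩

end Vale.Agent.P181.S
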